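import Vale.Agent.P083.Bdl.B1

open Filter Topology
open scoped BoundedContinuousFunction

namespace Vale.Agent.Results.P083.NoEmbedding

open Vale.Agent.P083 Vale.Agent.P083N

/-- **Kirchberg's embedding problem has a negative answer.** The Cuntz algebra `O₂` and its norm
ultrapowers exist, and there is a separable unital C*-algebra `A ≠ 0` such that there is no unital
*-homomorphism (in particular no unital embedding) from `A` to a norm ultrapower of `O₂`. -/
theorem result :
    (∃ (O : Type) (_ : CStarAlgebra O) (_ : Nontrivial O) (s₁ s₂ : O), CuntzTwo s₁ s₂) ∧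
    (∀ (O : Type) [CStarAlgebra O] [Nontrivial O] (ω : Ultrafilter ℕ),
      ∃ (Q : Type) (_ : CStarAlgebra Q) (q : (ℕ →ᵇ O) →⋆ₐ[ℂ] Q), IsUltrapower O ω Q q) ∧
    ∃ (A : Type) (_ : CStarAlgebra A), Nontrivial A ∧ TopologicalSpace.SeparableSpace A ∧
      ∀ (O : Type) [CStarAlgebra O] [Nontrivial O] (s₁ s₂ : O), CuntzTwo s₁ s₂ →
        ∀ (ω : Ultrafilter ℕ) (Q : Type) [CStarAlgebra Q] (q : (ℕ →ᵇ O) →⋆ₐ[ℂ] Q),
          IsUltrapower O ω Q q → IsEmpty (A →⋆ₐ[ℂ] Q) :=
  main_quot

end Vale.Agent.Results.P083.NoEmbedding
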